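import Vale.Agent.P321S.All

/-!
# P321: worst-case trace reconstruction needs superpolynomially many traces

For every fixed deletion probability `q ∈ (0,1)` the sample complexity `T_q(n)` eventually exceeds
every power of `n`.
-/

namespace Vale.Agent.Results.P321.A_Superpoly

open scoped BigOperators

/-- The trace of `x ∈ {0,1}^n` in which exactly the positions in `S` survive: the surviving bits
are concatenated in their original order. -/
def traceOf {n : ℕ} (x : Fin n → Bool) (S : Finset (Fin n)) : List Bool :=
  ((List.finRange n).filter (fun i => decide (i ∈ S))).map x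

/-- The probability that exactly the positions in `S` survive when each position is deleted
independently with probability `q`. -/
noncomputable def survivalProb (q : ℝ) {n : ℕ} (S : Finset (Fin n)) : ℝ :=
  (1 - q) ^ S.card * q ^ (n - S.card)

/-- `m` independent traces suffice for length `n`: there is a (randomized) estimator `est`
(`est ys` is a probability vector on `{0,1}^n` for every sequence `ys` of `m` strings) that outputs
`x` with probability at least `2/3` for every `x ∈ {0,1}^n`. -/
def Suffices (q : ℝ) (n m : ℕ) : Prop :=
  ∃ est : (Fin m → List Bool) → (Fin n → Bool) → ℝ,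
    (∀ ys x, 0 ≤ est ys x) ∧ (∀ ys, ∑ x, est ys x = 1) ∧
    ∀ x : Fin n → Bool,
      2 / 3 ≤ ∑ S : Fin m → Finset (Fin n),
        (∏ i, survivalProb q (S i)) * est (fun i => traceOf x (S i)) x

/-- The worst-case sample complexity `T_q(n)` of trace reconstruction. -/
noncomputable def sampleComplexity (q : ℝ) (n : ℕ) : ℕ := sInf {m : ℕ | Suffices q n m}

/-- For every `q ∈ (0,1)`: finitely many traces suffice for every `n`, and for every `A` one has
`T_q(n) ≥ n ^ A` for all large `n`. -/
theorem result :
    ∀ q : ℝ, 0 < q → q < 1 →
      (∀ n : ℕ, ∃ m : ℕ, Suffices q n m) ∧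
      ∀ A : ℕ, ∀ᶠ n : ℕ in Filter.atTop, n ^ A ≤ sampleComplexity q n := by
  intro q h0 h1
  have hfin : ∀ n : ℕ, ∃ m : ℕ, Suffices q n m := fun n =>
    Vale.P321S.reconstructs_exists h0 h1 n
  refine ⟨hfin, fun A => ?_⟩
  obtain ⟨n₀, hn₀⟩ := Vale.P321S.final q h0 h1 A
  filter_upwards [Filter.eventually_ge_atTop n₀] with n hn
  have hne : {m : ℕ | Suffices q n m}.Nonempty := hfin n
  exact hn₀ n hn _ (Nat.sInf_mem hne)

end Vale.Agent.Results.P321.A_Superpoly
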