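import Vale.Agent.P321S.TwoStr

/-!
# P321: close pairs of strings and a superpolynomial lower bound at every success level
-/

namespace Vale.Agent.Results.P321.C_ClosePairs

open scoped BigOperators
open Filter

/-- The trace of `x ∈ {0,1}^n` in which exactly the positions in `S` survive. -/
def traceOf {n : ℕ} (x : Fin n → Bool) (S : Finset (Fin n)) : List Bool :=
  ((List.finRange n).filter (fun i => decide (i ∈ S))).map x

/-- The probability that exactly the positions in `S` survive. -/
noncomputable def survivalProb (q : ℝ) {n : ℕ} (S : Finset (Fin n)) : ℝ :=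
  (1 - q) ^ S.card * q ^ (n - S.card)

/-- The probability that a trace of `x` equals the string `z`. -/
noncomputable def traceLaw (q : ℝ) {n : ℕ} (x : Fin n → Bool) (z : List Bool) : ℝ :=
  ∑ S : Finset (Fin n), if traceOf x S = z then survivalProb q S else 0

/-- Total variation distance between the laws of one trace of `x` and one trace of `y`. -/
noncomputable def tvDist (q : ℝ) {n : ℕ} (x y : Fin n → Bool) : ℝ :=
  (1 / 2) * ∑' z : List Bool, |traceLaw q x z - traceLaw q y z|

/-- Some randomized estimator, given `m` independent traces, outputs `x` with probability at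
least `s`, for every `x ∈ {0,1}^n`. -/
def Suffices (q s : ℝ) (n m : ℕ) : Prop :=
  ∃ est : (Fin m → List Bool) → (Fin n → Bool) → ℝ,
    (∀ ys x, 0 ≤ est ys x) ∧ (∀ ys, ∑ x, est ys x = 1) ∧
    ∀ x : Fin n → Bool,
      s ≤ ∑ S : Fin m → Finset (Fin n),
        (∏ i, survivalProb q (S i)) * est (fun i => traceOf x (S i)) x

/-- The least number of traces that suffices for success probability `s`; `T_q(n)` is the value
at `s = 2/3`. -/
noncomputable def samples (q s : ℝ) (n : ℕ) : ℕ := sInf {m : ℕ | Suffices q s n m}

/-- For every `q ∈ (0,1)`: for all large `n` there are two different strings of length `n` whose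
trace laws are at total variation distance at most `n ^ (-(log log n)/800)`; for every success
level `s ∈ (1/2,1)` the sample complexity is finite and at least `n ^ ((log log n)/1000)` for all
large `n`, dominates every power of `n`, is not bounded by a polynomial, and its logarithm divided
by `log n` tends to infinity. -/
theorem result :
    ∀ q : ℝ, 0 < q → q < 1 →
      (∀ᶠ n : ℕ in atTop, ∃ x y : Fin n → Bool, x ≠ y ∧
        tvDist q x y ≤ (n : ℝ) ^ (-(Real.log (Real.log n) / 800))) ∧
      ∀ s : ℝ, 1 / 2 < s → s < 1 →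
        (∀ n : ℕ, ∃ m : ℕ, Suffices q s n m) ∧
        (∀ᶠ n : ℕ in atTop,
          (n : ℝ) ^ (Real.log (Real.log n) / 1000) ≤ (samples q s n : ℝ)) ∧
        (∀ A : ℕ, (fun n : ℕ => (n : ℝ) ^ A) =o[atTop] fun n => (samples q s n : ℝ)) ∧
        (¬ ∃ A : ℕ, (fun n => (samples q s n : ℝ)) =O[atTop] fun n : ℕ => (n : ℝ) ^ A) ∧
        Tendsto (fun n : ℕ => Real.log (samples q s n) / Real.log n) atTop atTop := by
  intro q h0 h1
  refine ⟨?_, ?_⟩
  · filter_upwards [Vale.P321S.close_pair q h0 h1] with n hn
    obtain ⟨x, y, hxy, hc⟩ := hn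
    refine ⟨x, y, hxy, ?_⟩
    have e : tvDist q x y = (1 / 2) * ∑' z : List Bool,
        |Vale.P321S.lawP q x z - Vale.P321S.lawP q y z| := rfl
    have e0 : 0 ≤ ∑' z : List Bool, |Vale.P321S.lawP q x z - Vale.P321S.lawP q y z| :=
      tsum_nonneg fun z => abs_nonneg _
    rw [← Vale.P321S.tv_eq] at hc
    rw [e]
    linarith
  · intro s hs hs1
    have hfin : ∀ n : ℕ, ∃ m : ℕ, Suffices q s n m := fun n =>
      Vale.P321S.sufS_exists h0 h1 hs1 n
    have hlow : ∀ᶠ n : ℕ in atTop,
        (n : ℝ) ^ (Real.log (Real.log n) / 1000) ≤ (samples q s n : ℝ) := by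
      filter_upwards [Vale.P321S.low_S q s h0 h1 hs] with n hn
      have hne : {m : ℕ | Suffices q s n m}.Nonempty := hfin n
      exact hn _ (Nat.sInf_mem hne)
    exact ⟨hfin, hlow, Vale.P321S.grow hlow⟩

end Vale.Agent.Results.P321.C_ClosePairs
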