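import Vale.Agent.P321.Core
import Vale.Agent.P321.FinalPre
import Vale.Agent.P321.NRM
import Vale.Agent.P321.COM
import Vale.Agent.P321.LAZY
import Vale.Agent.P321.RATE
import Vale.Agent.P321.HID
import Vale.Agent.P321.TMS
import Vale.Agent.P321.NEXT
import Vale.Agent.P321.STEP
import Vale.Agent.P321.BASE
import Vale.Agent.P321.NUM
import Vale.Agent.P321.LINK
import Vale.Agent.P321.SAMP

/-! For every exponent `C` the worst-case sample complexity of trace reconstruction is at least
`n ^ C` for large `n`, for every deletion probability in a left neighbourhood of one. -/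

namespace Vale.Agent.Results.P321.NearOne

theorem result : ∀ C : ℕ, ∃ q₀ : ℝ, 0 < q₀ ∧ q₀ < 1 ∧ ∀ q : ℝ, q₀ ≤ q → q < 1 →
    ∃ n₀ : ℕ, ∀ n : ℕ, n₀ ≤ n → ((n ^ C : ℕ) : ℕ∞) ≤ _root_.P321.sampleComplexity q n := by
  intro C
  have hrate : _root_.P321.RateStatement := _root_.P321.rate _root_.P321.lazy
  have hhid : _root_.P321.HidStatement :=
    _root_.P321.hid _root_.P321.law _root_.P321.nrm_isNrm _root_.P321.common hrate
  have hstep : _root_.P321.StepStatement :=
    _root_.P321.step _root_.P321.nrm_isNrm _root_.P321.law _root_.P321.tms _root_.P321.next hhid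
  have hbase : _root_.P321.BaseStatement :=
    _root_.P321.base _root_.P321.nrm_isNrm _root_.P321.law hrate
  obtain ⟨q₁, h1, h2⟩ := _root_.P321.main_of _root_.P321.nrm_isNrm _root_.P321.law hstep hbase
    _root_.P321.num (_root_.P321.samp _root_.P321.link) C
  exact ⟨max q₁ (1 / 2), lt_max_of_lt_right (by norm_num), max_lt h1 (by norm_num),
    fun q hq hq1 => h2 q ((le_max_left _ _).trans hq) hq1⟩

end Vale.Agent.Results.P321.NearOne
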